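import Mathlib
import Vale.Agent.P101.UltraDefs
import Vale.Agent.P101.DimDropDef
import Vale.Agent.P101.JS.Spec
import Vale.Agent.P101.JS.ZTensor
import Vale.Agent.P095.Witness

/-!
# P101: no characters on the central sequence algebra implies Z-stability
-/

namespace Vale.Agent.Results.P101.ZStable

open Filter TopologicalSpace VAgent.P101 Vale.Agent.P101.JS

theorem result : ∃ W : ∀ m, Frame m, IsJSFrame W ∧
    (∀ (A : Type*) [CStarAlgebra A] [Nontrivial A] [SeparableSpace A]
      (ω : Ultrafilter ℕ), (ω : Filter ℕ) ≤ cofinite →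
      Vale.Agent.P101.NoCharacters (CentralSeq A ω) → IsTensorLimit A W) ∧
    ∃ (L : Type) (_ : CStarAlgebra L), Nontrivial L ∧ SeparableSpace L ∧
      (∀ ω : Ultrafilter ℕ, (ω : Filter ℕ) ≤ cofinite →
        Vale.Agent.P101.NoCharacters (CentralSeq L ω)) ∧ IsTensorLimit L W :=
  ⟨frame, isJSFrame, fun A _ _ _ ω hω hchar => tensorLimit_of_noCharacters A ω hω hchar,
    Vale.Agent.P095.Witness.exists_tensorLimit⟩

end Vale.Agent.Results.P101.ZStable
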